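import Vale.Agent.P274.Bdl.B11

open Vale.Agent.P274

/-- The bounded-domain question of Kollár and Pardon has a positive answer: let `U` be a nonempty
connected bounded semialgebraic subset of `ℂ^N`, relatively open in a closed affine variety (the
zero set of an arbitrary set `I` of polynomials; `U` may be singular), with a group `Γ` acting on
`U` by holomorphic maps, properly discontinuously and with compact quotient. Then `U` is
biholomorphic to a bounded symmetric domain. -/
theorem Vale.Agent.Results.P274.KollarPardonQ2.result (N : ℕ)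
    (I : Set (MvPolynomial (Fin N) ℂ)) (U : Set (EuclideanSpace ℂ (Fin N)))
    (hU : ∃ O, IsOpen O ∧ U = zeroSet I ∩ O) (hUc : IsConnected U)
    (hb : Bornology.IsBounded U) (hS : IsSemialgebraic U)
    (Γ : Type) [Group Γ] [MulAction Γ U] (hΓ : ActsHol Γ U)
    (hprop : ProperlyDiscontinuousSMul Γ U)
    (hcpt : CompactSpace (MulAction.orbitRel.Quotient Γ U)) :
    ∃ (n : ℕ) (D : Set (EuclideanSpace ℂ (Fin n))), IsBoundedSymmetricDomain D ∧ Z.Bihol U D :=
  Z.symmetric_result N I U hU hUc hb hS Γ hΓ hprop hcpt
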